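import Vale.Agent.P028.ErdosVaaler.Divisor

/-!
For every shift: divergence of `∑ ψ(q) / τ(q)^(1+ε)` gives full measure.
-/

namespace Vale.Agent.Results.P028.DivisorDivergence

open MeasureTheory Vale.Agent.P028.ErdosVaaler

theorem result :
    ∀ (γ ε : ℝ), 0 < ε → ∀ ψ : ℕ → ℝ, (∀ q : ℕ, 0 ≤ ψ q) →
      ¬ Summable (fun q : ℕ => ψ q / (q.divisors.card : ℝ) ^ (1 + ε)) →
      ∀ᵐ x : ℝ, {q : ℕ | 0 < q ∧ ∃ a : ℤ, |(q : ℝ) * x - (a : ℝ) - γ| < ψ q}.Infinite :=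
  fun γ _ε hε _ψ h0 hdiv => full_measure_divisor γ h0 hε hdiv

end Vale.Agent.Results.P028.DivisorDivergence
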