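import Vale.Agent.P028.ErdosVaaler.LevelFull

/-!
Inhomogeneous Duffin–Schaeffer up to an epsilon: for irrational non-Liouville shifts,
divergence of `∑ ψ(q) / (1 + q ψ(q)) ^ ε` gives full measure. In particular this holds
for `ψ(q) = O(1/q)` with `∑ ψ(q)` divergent (Erdős–Vaaler type).
-/

namespace Vale.Agent.Results.P028.ErdosVaaler

open MeasureTheory Vale.Agent.P028.ErdosVaaler

theorem result :
    ∀ γ : ℝ, Irrational γ → ¬ Liouville γ →
      ∀ ε : ℝ, 0 < ε → ∀ ψ : ℕ → ℝ, (∀ q : ℕ, 0 ≤ ψ q) →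
        ¬ Summable (fun q : ℕ => ψ q / (1 + (q : ℝ) * ψ q) ^ ε) →
        ∀ᵐ x : ℝ, {q : ℕ | 0 < q ∧ ∃ a : ℤ, |(q : ℝ) * x - (a : ℝ) - γ| < ψ q}.Infinite := by
  intro γ hirr hliou ε hε ψ h0 hdiv
  unfold Liouville at hliou
  push Not at hliou
  obtain ⟨n, hn⟩ := hliou
  have hpos : 0 < |γ - (round γ : ℝ)| := abs_pos.2 (sub_ne_zero.2 (hirr.ne_int (round γ)))
  have hdio : Dio γ (min 1 |γ - (round γ : ℝ)|) (n + 1) := by
    refine ⟨lt_min one_pos hpos, Nat.succ_pos n, fun k hk a => ?_⟩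
    rcases eq_or_lt_of_le (Nat.one_le_iff_ne_zero.2 hk.ne') with hk1 | hk1
    · rw [← hk1, Nat.cast_one, one_pow, div_one, one_mul]
      exact (min_le_right _ _).trans (round_le γ a)
    · have hkR : (1 : ℝ) ≤ k := Nat.one_le_cast.2 hk
      have hne : γ ≠ (a : ℝ) / ((k : ℤ) : ℝ) := by
        intro he
        exact hirr ⟨(a : ℚ) / ((k : ℤ) : ℚ), by rw [he]; push_cast; rfl⟩
      have key := hn a (k : ℤ) (by exact_mod_cast hk1) hne
      push_cast at key
      have e : |(k : ℝ) * γ - a| = (k : ℝ) * |γ - (a : ℝ) / k| := by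
        rw [← abs_of_pos (lt_of_lt_of_le one_pos hkR), ← abs_mul,
          abs_of_pos (lt_of_lt_of_le one_pos hkR)]
        congr 1
        field_simp
      calc min 1 |γ - (round γ : ℝ)| / (k : ℝ) ^ (n + 1) ≤ 1 / (k : ℝ) ^ (n + 1) :=
            div_le_div_of_nonneg_right (min_le_left _ _) (by positivity)
        _ ≤ 1 / (k : ℝ) ^ n :=
            one_div_le_one_div_of_le (by positivity) (pow_le_pow_right₀ hkR (Nat.le_succ n))
        _ ≤ |γ - (a : ℝ) / k| := key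
        _ ≤ (k : ℝ) * |γ - (a : ℝ) / k| := le_mul_of_one_le_left (abs_nonneg _) hkR
        _ = |(k : ℝ) * γ - a| := e.symm
  exact full_measure_level hdio hε h0 hdiv

end Vale.Agent.Results.P028.ErdosVaaler
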